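import Crest.Agent.X262.Conc78.Defs
import Crest.Agent.X262.Div34.Core

/-!
# Row 262, road B (helper95): naturality of the class `ob`; low powers of a fibre class die

* `ob_map`, `ob_gau`, `ob_geq`, `ob_congr`, `ob_idx`, `ob_pr`, `ob_red_map`;
* `low`, `top_poly`, `low_top`, `low_top0`.
-/

set_option autoImplicit false
set_option linter.unusedSectionVars false

noncomputable section

namespace Crest.Agent.X262.Ob95

open Crest.Agent.X277 Crest.Agent.X277.BD Crest.Agent.X277.Pst Crest.Agent.X277.BD.Cyc Polynomial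
open Crest.Agent.X262.Hb Crest.Agent.X262.Vb Crest.Agent.X262.Conc78
open Crest.Agent.X262.Tree87 (Rb HZ MZ pR pM mem_Rb Rb_map)
open Crest.Agent.X262.Tr89 (pc pc_replicate)

variable {B : Th}

section Sat

variable {K E : Type} [Field K] [Algebra ℂ K] [Field E] [Algebra ℂ E] {P Q : Type} [Fintype P]
  [Fintype Q] {a : P → BD ℂ K} {W U : Submodule K (P → K)}

theorem mxf_range {s : P → K} {s' : Q → K} (h : Set.range s = Set.range s') :
    mxf ℂ s = mxf ℂ s' := by
  classical
  unfold mxf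
  congr 1
  apply Finset.coe_injective
  simpa using h

theorem cp2_of_not_le (h : ¬ W ≤ U) : B.cp2 a W U = 1 := dif_neg fun ⟨_, hl⟩ => h hl.le

theorem mapS_le_iff (α : K →ₐ[ℂ] E) : mapS α W ≤ mapS α U ↔ W ≤ U :=
  ⟨fun h _ hw => (map_mem_mapS_iff α).1 (h (mem_mapS α hw)), mapS_mono α⟩

theorem sclS_le_iff {c : P → K} (hc : ∀ x, c x ≠ 0) : sclS c W ≤ sclS c U ↔ W ≤ U := by
  refine ⟨fun h w hw => ?_, sclS_mono c⟩
  have h1 := (mem_sclS' hc).1 (h (scl_mem hw))
  simpa only [inv_mul_cancel_left₀ (hc _)] using h1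

theorem mapS_span (α : K →ₐ[ℂ] E) {ι : Type} (f : ι → P → K) :
    mapS α (Submodule.span K (Set.range f)) = Submodule.span E (Set.range fun i x => α (f i x)) := by
  refine le_antisymm (mapS_le fun u hu => ?_) (Submodule.span_le.2 ?_)
  · induction hu using Submodule.span_induction with
    | mem u hu => obtain ⟨i, rfl⟩ := hu; exact Submodule.subset_span ⟨i, rfl⟩
    | zero => simp only [Pi.zero_apply, map_zero]; exact Submodule.zero_mem _
    | add u v _ _ h1 h2 => simp only [Pi.add_apply, map_add]; exact Submodule.add_mem _ h1 h2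
    | smul c u _ h1 =>
      simp only [Pi.smul_apply, smul_eq_mul, map_mul]
      exact Submodule.smul_mem _ (α c) h1
  · rintro _ ⟨i, rfl⟩
    exact mem_mapS α (Submodule.subset_span ⟨i, rfl⟩)

theorem sclS_span (c : P → K) {ι : Type} (f : ι → P → K) :
    sclS c (Submodule.span K (Set.range f)) =
      Submodule.span K (Set.range fun i x => c x * f i x) := by
  rw [sclS, Submodule.map_span, ← Set.range_comp]
  rfl

variable (hB : B.Ax) [Algebra.EssFiniteType ℂ K]
include hB

theorem cp2_mapS [Algebra.EssFiniteType ℂ E] (α : K →ₐ[ℂ] E) (a : P → BD ℂ K)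
    (W U : Submodule K (P → K)) :
    (B.cp2 a W U).map (B.pb (LP.hom α) : B.H K →+* B.H E) =
      B.cp2 (fun i => pb α (a i)) (mapS α W) (mapS α U) := by
  by_cases h : W ≤ U
  · rw [hB.cp2_rd (fun i => val_hom α (a i)) h, ← redS_hom, ← redS_hom]
    simp only [Vb.res_hom]
    rfl
  · rw [cp2_of_not_le h, cp2_of_not_le (mt (mapS_le_iff α).1 h), Polynomial.map_one]

theorem cp2_sclS {c : P → K} (hc : ∀ x, c x ≠ 0) (a : P → BD ℂ K) (W U : Submodule K (P → K)) :
    B.cp2 (fun i => a i + pr ℂ (c i)) (sclS c W) (sclS c U) = B.cp2 a W U := by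
  by_cases h : W ≤ U
  · exact hB.cp2_dia hc (fun _ => rfl) h
  · rw [cp2_of_not_le h, cp2_of_not_le (mt (sclS_le_iff hc).1 h)]

theorem cp2_equiv (g : Q ≃ P) (a : P → BD ℂ K) (W U : Submodule K (P → K)) :
    B.cp2 (fun i => a (g i)) (W.map (LinearMap.funLeft K K g)) (U.map (LinearMap.funLeft K K g)) =
      B.cp2 a W U := by
  by_cases h : W ≤ U
  · exact hB.cp2_iso h fun V x _ => nm_funLeft fun i hi => (hi (g.surjective i)).elim
  · rw [cp2_of_not_le h, cp2_of_not_le (mt (Submodule.map_le_map_iff_of_injective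
      (LinearMap.funLeft_injective_of_surjective K K g g.surjective) W U).1 h)]

end Sat

section Ob

variable {J : Type} [Fintype J] [DecidableEq J] {io : J → Type} [∀ j, Fintype (io j)]
  [∀ j, DecidableEq (io j)] {I K E : Type} [Fintype I] [Field K] [Algebra ℂ K] [Field E]
  [Algebra ℂ E]

theorem pv_wd (y : Pnt io K) (j : J) (b : io j × io j) (a : io j) :
    pv y (wdM (vr j) b a) = (if a = b.1 then y j b.2 else 0) - if a = b.2 then y j b.1 else 0 := by
  simp only [pv, wdM, map_sub, apply_ite (MvPolynomial.aeval _), MvPolynomial.aeval_X, map_zero]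

theorem hz_wd (j : J) : HZ (fun _ => Pi.single j 1) (fun _ => 0) (wdM (vr (io := io) j)) := by
  intro b a
  have h : ∀ (p : Prop) [Decidable p] (i : io j),
      MH (if p then vr j i else 0) (Pi.single j 1) := fun p _ i => by
    split_ifs
    · exact mh_vr j i
    · exact fun _ h => (h rfl).elim
  simpa [wdM] using MZ.of_MH (mh_sub (h (a = b.1) b.2) (h (a = b.2) b.1))

theorem chr_single (c : J → K) (j : J) : ∏ j', c j' ^ (Pi.single j 1 : J → ℕ) j' = c j := by
  rw [Finset.prod_eq_single j (fun k _ hk => by simp [hk]) (by simp)]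
  simp

theorem cU_le (j : J) {z : Cfg io I K} (h : ∀ i, (fun q => z.y q j i) ∈ z.V (Pi.single j 1)) :
    cU j z ≤ HU j z := by
  refine Submodule.span_le.2 ?_
  rintro _ ⟨a, rfl⟩
  refine mem_Rb.2 ⟨fun b => ?_, fun q => ⟨Pi.single a 1, ?_⟩⟩
  · simp only [pv_wd]
    refine Submodule.sub_mem _ ?_ ?_ <;> split_ifs <;> first | exact h _ | exact zero_mem _
  · funext b
    simp [pM]

/-- `ob` only depends on the coordinates of the factor and on the sections of `O(1)` -/
theorem ob_congr (j : J) {z z' : Cfg io I K} (hy : ∀ q, z'.y q j = z.y q j)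
    (hV : z'.V (Pi.single j 1) = z.V (Pi.single j 1)) : ob B j z' = ob B j z := by
  have h1 : ∀ q b a, pv (z'.y q) (wdM (vr j) b a) = pv (z.y q) (wdM (vr j) b a) := fun q b a => by
    rw [pv_wd, pv_wd, hy]
  have h2 : ∀ q, pR (wdM (vr j)) (z'.y q) = pR (wdM (vr j)) (z.y q) := fun q => by
    have : pM (wdM (vr j)) (z'.y q) = pM (wdM (vr j)) (z.y q) := by
      funext b a
      exact h1 q b a
    rw [pR, pR, this]
  have h3 : aU j z' = aU j z := by
    funext x
    simp only [aU, lw_single, ln, hy]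
  have h4 : cU j z' = cU j z := by simp only [cU, h1]
  have h5 : HU j z' = HU j z := by simp only [HU, Rb, h2, hV]
  rw [ob, ob, h3, h4, h5]

variable (hB : B.Ax) [Algebra.EssFiniteType ℂ K]
include hB

theorem ob_map [Algebra.EssFiniteType ℂ E] (α : K →ₐ[ℂ] E) (j : J) (z : Cfg io I K) :
    (ob B j z).map (B.pb (LP.hom α) : B.H K →+* B.H E) = ob B j (z.map α) := by
  rw [ob, ob, cp2_mapS hB, HU, HU, Rb_map, cU, cU, mapS_span]
  congr 1
  · funext x
    exact (lw_map α _ _).symm
  · congr 2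
    funext a x
    exact (Vb.pv_map α _ _).symm

theorem ob_gau (j : J) {z : Cfg io I K} (hz : z.NZ) {c : I → J → K} (hc : ∀ q j, c q j ≠ 0) :
    ob B j (z.gau c) = ob B j z := by
  rw [ob, ob, ← cp2_sclS hB (c := fun x : (io j × io j) × I => c x.2 j) (fun x => hc _ _) (aU j z),
    HU, HU, (hz_wd j).Rb_gau hc, cU, cU, sclS_span]
  congr 1
  · funext x
    rw [aU, aU, Cfg.gau_y, lw_single, lw_single, ln_scl (hz _) (hc _)]
  · congr 2
    funext a x
    rw [pv_wd, pv_wd, mul_sub, mul_ite, mul_ite, mul_zero]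
    rfl
  · simp only [chr_single]

theorem ob_geq (j : J) {z z' : Cfg io I K} (h : z.Geq z') (hz : z.NZ) :
    ob B j z' = ob B j z := by
  obtain ⟨c, hc, rfl⟩ := h
  exact ob_gau hB j hz hc

/-- reindexing -/
theorem ob_idx {J₀ : Type} [Fintype J₀] [DecidableEq J₀] {io₀ : J₀ → Type} [∀ j, Fintype (io₀ j)]
    [∀ j, DecidableEq (io₀ j)] {j : J} {j₀ : J₀} (e : io₀ j₀ ≃ io j) {z : Cfg io I K}
    {z₀ : Cfg io₀ I K} (hy : ∀ q i, z₀.y q j₀ i = z.y q j (e i))
    (hV : z₀.V (Pi.single j₀ 1) = z.V (Pi.single j 1)) : ob B j₀ z₀ = ob B j z := by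
  let g : (io₀ j₀ × io₀ j₀) × I ≃ (io j × io j) × I := (e.prodCongr e).prodCongr (Equiv.refl I)
  have h1 : ∀ q b a, pv (z₀.y q) (wdM (vr j₀) b a) =
      pv (z.y q) (wdM (vr j) (e b.1, e b.2) (e a)) := fun q b a => by
    simp only [pv_wd, hy, e.apply_eq_iff_eq]
  have h2 : ∀ q (w : io j → K) (b : io₀ j₀ × io₀ j₀), (pM (wdM (vr j₀)) (z₀.y q)).mulVec
      (fun a => w (e a)) b = (pM (wdM (vr j)) (z.y q)).mulVec w (e b.1, e b.2) := fun q w b => by
    simp only [Matrix.mulVec, dotProduct, pM, h1]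
    exact e.sum_comp fun a => pv (z.y q) (wdM (vr j) (e b.1, e b.2) a) * w a
  rw [ob, ob, ← cp2_equiv hB g (aU j z)]
  congr 1
  · funext x
    simp only [aU, lw_single, ln]
    refine mxf_range ?_
    rw [show z₀.y x.2 j₀ = z.y x.2 j ∘ e from _root_.funext (hy x.2), e.surjective.range_comp]
    rfl
  · rw [cU, cU, Submodule.map_span, ← Set.range_comp, ← e.surjective.range_comp]
    congr 2
    funext a x
    exact h1 x.2 x.1 a
  · ext σ
    rw [Submodule.mem_map]
    constructor
    · intro h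
      obtain ⟨h3, h4⟩ := mem_Rb.1 h
      refine ⟨fun x => σ (g.symm x), mem_Rb.2 ⟨fun b => hV ▸ h3 (e.symm b.1, e.symm b.2),
        fun q => ?_⟩, _root_.funext fun x => congrArg σ (g.symm_apply_apply x)⟩
      obtain ⟨w, hw⟩ := h4 q
      refine ⟨fun a => w (e.symm a), _root_.funext fun b => ?_⟩
      have h5 := h2 q (fun a => w (e.symm a)) (e.symm b.1, e.symm b.2)
      simp only [e.symm_apply_apply, e.apply_symm_apply] at h5
      exact h5.symm.trans (congrFun hw _)
    · rintro ⟨τ, h, rfl⟩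
      obtain ⟨h3, h4⟩ := mem_Rb.1 h
      refine mem_Rb.2 ⟨fun b => hV ▸ h3 (e b.1, e b.2), fun q => ?_⟩
      obtain ⟨w, hw⟩ := h4 q
      exact ⟨fun a => w (e a), _root_.funext fun b => (h2 q w b).trans (congrFun hw _)⟩

omit hB in
theorem up_single {J₀ : Type} [Fintype J₀] [DecidableEq J₀] {io₀ : J₀ → Type}
    (r : Cd io₀ io) (k : J₀) : r.up (Pi.single k 1) = Pi.single (r.e (some (some k))) 1 := by
  funext j
  obtain ⟨j, rfl⟩ := r.e.surjective j
  rcases j with _ | _ | j <;> simp [Cd.up, Pi.single_apply]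

/-- the projection of `Cd` -/
theorem ob_pr {J₀ : Type} [Fintype J₀] [DecidableEq J₀] {io₀ : J₀ → Type} [∀ j, Fintype (io₀ j)]
    [∀ j, DecidableEq (io₀ j)] (r : Cd io₀ io) {z : Cfg io I K} {z₀ : Cfg io₀ I K}
    (hy : ∀ q, z₀.y q = r.pr (z.y q))
    (hV : z₀.V (Pi.single r.jU 1) = z.V (r.up (Pi.single r.jU 1))) :
    ob B r.jU z₀ = ob B r.cn.jU z :=
  ob_idx hB (r.ei r.jU) (fun q i => by rw [hy]; rfl) (hV.trans (congrArg z.V (up_single r r.jU)))

/-- along a place: `ob` of the reduction of an extended configuration is pulled back -/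
theorem ob_red_map [Algebra.EssFiniteType ℂ E] (θ : K →ₐ[ℂ] E) (j : J) {z : Cfg io I K}
    (hz : z.NZ) {W : RZ ℂ E} (hW : Dvs W) (hV : Dvs (Val40.dn θ W)) :
    ob B j ((z.map θ).red (plV W)) = (ob B j (z.red (plV (Val40.dn θ W)))).map
      (B.pb (LP.hom (Val40.rf θ W)) : B.H (Rf (Val40.dn θ W)) →+* B.H (Rf W)) := by
  have := Geo.essFT_Rf hW
  have := Geo.essFT_Rf hV
  rw [ob_map hB]
  have hS : Val40.Sq θ (plV (Val40.dn θ W)) (plV W) (Val40.rf θ W) :=
    ⟨fun _ => Iff.rfl, fun x => (Val40.rf_r θ W x).symm⟩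
  exact ob_geq hB j (hS.red z) ((hz.red _).map _)

end Ob

section Low

variable {F E : Type} [Field F] [Algebra ℂ F] [Field E] [Algebra ℂ E]
  [Algebra.EssFiniteType ℂ F] [Algebra.EssFiniteType ℂ E] (hB : B.Ax) (α : F →ₐ[ℂ] E) (b : BD ℂ E)
include hB

/-- low powers of a divisor class vanish against pulled back classes -/
theorem low {i : ℕ} (h : i + dim ℂ F < dim ℂ E) (x : B.H F) :
    B.itg E (B.c1 b ^ i * B.pb (LP.hom α) x) = 0 := by
  rw [← pc_replicate, Div.itg_rn hB α x (by simpa using h.le),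
    Div.rn_of_ne α (by rw [List.length_replicate]; omega), Int.cast_zero, zero_mul]

/-- only the top power survives -/
theorem top_poly {n : ℕ} (h : dim ℂ E = dim ℂ F + n) {f : (B.H F)[X]} (hf : f.natDegree ≤ n) :
    B.itg E ((f.map (B.pb (LP.hom α) : B.H F →+* B.H E)).eval (B.c1 b)) =
      B.itg E (B.c1 b ^ n * B.pb (LP.hom α) (f.coeff n)) := by
  rw [eval_eq_sum_range' (Nat.lt_succ_of_le (natDegree_map_le.trans hf)), Finset.sum_range_succ,
    map_add, map_sum, Finset.sum_eq_zero, zero_add, coeff_map, mul_comm]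
  · rfl
  · intro i hi
    rw [coeff_map, mul_comm]
    exact low hB α b (by rw [Finset.mem_range] at hi; omega) _

/-- the integrand of the concave end -/
theorem low_top {M : Type} [Fintype M] {h : ℕ} (hd : dim ℂ E = dim ℂ F + (h + Fintype.card M))
    {o : (B.H F)[X]} (ho : o.natDegree ≤ h) (u δ : B.H F) (be ga : M → B.H F) :
    B.itg E (B.pb (LP.hom α) u *
        (o.map (B.pb (LP.hom α) : B.H F →+* B.H E)).eval (B.pb (LP.hom α) δ + B.c1 b) *
        ∏ q, (B.pb (LP.hom α) (be q) + B.c1 b * B.pb (LP.hom α) (ga q))) =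
      B.itg E (B.c1 b ^ (h + Fintype.card M) * B.pb (LP.hom α) (u * o.coeff h * ∏ q, ga q)) := by
  have h1 : ∀ q, (C (be q) + X * C (ga q)).natDegree ≤ 1 := fun q => by compute_degree
  have h2 : (∏ q, (C (be q) + X * C (ga q))).natDegree ≤ Fintype.card M :=
    (natDegree_prod_le _ _).trans ((Finset.sum_le_sum fun q _ => h1 q).trans (by simp))
  have h3 : (C u * taylor δ o).natDegree ≤ h :=
    (natDegree_C_mul_le _ _).trans ((natDegree_taylor _ _).trans_le ho)
  have h4 : (taylor δ o).coeff h = o.coeff h := by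
    rcases ho.eq_or_lt with rfl | hlt
    · exact coeff_taylor_natDegree _ _
    · rw [coeff_eq_zero_of_natDegree_lt hlt,
        coeff_eq_zero_of_natDegree_lt ((natDegree_taylor _ _).trans_lt hlt)]
  have h5 : (∏ q, (C (be q) + X * C (ga q))).coeff (Fintype.card M) = ∏ q, ga q := by
    have := coeff_prod_of_natDegree_le Finset.univ _ 1 fun q _ => h1 q
    rw [mul_one] at this
    exact this.trans (Finset.prod_congr rfl fun q _ => by simp [coeff_C])
  have h6 := top_poly hB α b hd (f := C u * taylor δ o * ∏ q, (C (be q) + X * C (ga q)))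
    (natDegree_mul_le.trans (add_le_add h3 h2))
  rw [coeff_mul_add_eq_of_natDegree_le h3 h2, h5, coeff_C_mul, h4] at h6
  rw [← h6]
  congr 1
  simp [Polynomial.map_prod, eval_prod, taylor_eval, add_comm, mul_comm (B.c1 b)]

/-- the same without the shift -/
theorem low_top0 {M : Type} [Fintype M] {h : ℕ} (hd : dim ℂ E = dim ℂ F + (h + Fintype.card M))
    {o : (B.H F)[X]} (ho : o.natDegree ≤ h) (u : B.H F) (be ga : M → B.H F) :
    B.itg E (B.pb (LP.hom α) u * (o.map (B.pb (LP.hom α) : B.H F →+* B.H E)).eval (B.c1 b) *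
        ∏ q, (B.pb (LP.hom α) (be q) + B.c1 b * B.pb (LP.hom α) (ga q))) =
      B.itg E (B.c1 b ^ (h + Fintype.card M) * B.pb (LP.hom α) (u * o.coeff h * ∏ q, ga q)) := by
  simpa only [map_zero, zero_add] using low_top hB α b hd ho u 0 be ga

end Low

end Crest.Agent.X262.Ob95
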